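import Vale.Agent.P269.Defs.Vir
import Vale.Agent.P269.Holo.Param

/-!
# General moduli problems (proof side)

Families of targets over a parameter space with an extra torus, base fields (relative divisors,
degenerations), persistent nodes. The statement is the case of no parameters, no extra torus, no base
fields and no nodes.
-/

set_option linter.unusedSectionVars false

namespace Vale.Agent.P269

open P291Z Set Function Topology Filter MvPolynomial

/-- The weights: `R` indexes the torus of the target, `S` an extra torus, `Λ` the parameters, `J`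
the fields. -/
structure Wt (S Λ R J : Type) where
  /-- weights of the fields for the torus `R` -/
  w : J → R → ℤ
  /-- weights of the fields for the torus `S` -/
  wt : J → S → ℤ
  /-- weights of the parameters -/
  wl : Λ → S → ℤ

/-- A family of targets. The fields outside `mov` are base fields; those in `zer` vanish
identically, the others cut out divisors. -/
structure Fam (S Λ R J K : Type) extends Wt S Λ R J where
  /-- the polarisation -/
  θ : R → ℤ
  /-- weights of the equations for the torus `R` -/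
  χ : K → R → ℤ
  /-- weights of the equations for the torus `S` -/
  wk : K → S → ℤ
  /-- the equations -/
  G : K → MvPolynomial J (MvPolynomial Λ ℂ)
  /-- the allowed parameters -/
  B : Set (Λ → ℂ)
  /-- the semistable locus (open) -/
  U : Set ((Λ → ℂ) × (J → ℂ))
  /-- closed conditions on the parameters and the base fields, such as `b c = t` -/
  E : Set ((Λ → ℂ) × (J → ℂ))
  /-- the movable fields -/
  mov : Set J
  /-- the base fields that vanish identically -/
  zer : Set J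

variable {S Λ R J K : Type} [Fintype S] [Fintype Λ] [Fintype R] [Fintype J] [Fintype K]

namespace Wt

variable (F : Wt S Λ R J)

/-- The action of the torus `S` on the parameters. -/
noncomputable def actL (τ : S → ℂ) (l : Λ → ℂ) : Λ → ℂ := fun a => (∏ i, τ i ^ F.wl a i) * l a

/-- The action of both tori on parameters and fields. -/
noncomputable def actT (t : (S → ℂ) × (R → ℂ)) (z : (Λ → ℂ) × (J → ℂ)) : (Λ → ℂ) × (J → ℂ) :=
  (F.actL t.1 z.1, fun j => (∏ i, t.1 i ^ F.wt j i) * (∏ i, t.2 i ^ F.w j i) * z.2 j)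

/-- The quotient of an invariant set of parameters and fields. -/
abbrev X (A : Set ((Λ → ℂ) × (J → ℂ))) : Type := Quo F.actT A

/-- The quotient of an invariant set of parameters. -/
abbrev Bs (A : Set (Λ → ℂ)) : Type := Quo F.actL A

/-- The diagonal action on pairs. -/
noncomputable def act2 (t : (S → ℂ) × (R → ℂ)) (z : (Λ → ℂ) × (J → ℂ) × (J → ℂ)) :
    (Λ → ℂ) × (J → ℂ) × (J → ℂ) :=
  (F.actL t.1 z.1, (F.actT t (z.1, z.2.1)).2, (F.actT t (z.1, z.2.2)).2)

/-- The action on pairs with two copies of the torus `R`. -/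
noncomputable def act3 (t : (S → ℂ) × (R → ℂ) × (R → ℂ)) (z : (Λ → ℂ) × (J → ℂ) × (J → ℂ)) :
    (Λ → ℂ) × (J → ℂ) × (J → ℂ) :=
  (F.actL t.1 z.1, (F.actT (t.1, t.2.1) (z.1, z.2.1)).2, (F.actT (t.1, t.2.2) (z.1, z.2.2)).2)

end Wt

namespace Fam

variable (F : Fam S Λ R J K)

/-- The same family with other parameters and other vanishing base fields. -/
@[reducible] def sub (B : Set (Λ → ℂ)) (Z : Set J) : Fam S Λ R J K := { F with B := B, zer := Z }

/-- The member of the family with parameter `l`. -/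
noncomputable def fib (l : Λ → ℂ) : Tgt R J K where
  w := F.w
  U := {y | (l, y) ∈ F.U ∧ (l, y) ∈ F.E ∧ ∀ j ∈ F.zer, y j = 0}
  F := fun k => MvPolynomial.map (eval l) (F.G k)
  θ := F.θ

/-- The total cone. -/
def cone : Set ((Λ → ℂ) × (J → ℂ)) := {z | z.1 ∈ F.B ∧ z.2 ∈ (F.fib z.1).cone}

/-- Pairs of points of the cone with the same parameters. -/
def cone3 : Set ((Λ → ℂ) × (J → ℂ) × (J → ℂ)) :=
  {z | (z.1, z.2.1) ∈ F.cone ∧ (z.1, z.2.2) ∈ F.cone}

/-- Pairs of points of the cone with the same parameters and the same base fields. -/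
def cone2 : Set ((Λ → ℂ) × (J → ℂ) × (J → ℂ)) :=
  {z | z ∈ F.cone3 ∧ ∀ j ∉ F.mov, z.2.1 j = z.2.2 j}

/-- The quotient of these pairs by the diagonal action. -/
abbrev X2 : Type := Quo F.act2 F.cone2

/-- The fibre product of the total space with itself over the parameter space. -/
abbrev X3 : Type := Quo F.act3 F.cone3

/-- The vertical tangent space of the cone: movable directions killed by the differentials. -/
noncomputable def vert (z : (Λ → ℂ) × (J → ℂ)) : Submodule ℂ (J → ℂ) :=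
  (⨅ j ∈ F.movᶜ, LinearMap.ker (LinearMap.proj j : (J → ℂ) →ₗ[ℂ] ℂ)) ⊓
    ⨅ k, LinearMap.ker (∑ j, eval z.2 (pderiv j ((F.fib z.1).F k)) •
      (LinearMap.proj j : (J → ℂ) →ₗ[ℂ] ℂ))

/-- `t` represents the class of the diagonal in `X2`: a cocycle supported on the diagonal whose
pull-back along every holomorphic germ transverse to the diagonal is the orientation cocycle. -/
def IsDiag (t : Coch F.X2) : Prop :=
  supp (δ t) = ∅ ∧ supp t ⊆ {z | (Quo.out z).1.2.1 = (Quo.out z).1.2.2} ∧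
  ∀ z ∈ F.cone, IsDeg (2 * Module.finrank ℂ (F.vert z)) t ∧
    ∀ (r : ℕ) (O : Set (Fin r → ℂ)) (φ : O → F.cone2) (Φ : (Fin r → ℂ) → J → ℂ), IsOpen O → 0 ∈ O →
      AnalyticOnNhd ℂ Φ O → InjOn Φ O → Φ 0 = z.2 → (∀ v : O, (φ v).1 = (z.1, z.2, Φ v)) →
      Injective (fderiv ℂ Φ 0) → (fderiv ℂ Φ 0).range = F.vert z →
      Cohom {v | v.1 = 0} (pull (fun v => Quo.mk F.act2 (φ v)) t) (pull Subtype.val (tau r))

/-- A cocycle representing the diagonal. -/
noncomputable def diag : Coch F.X2 := Classical.epsilon F.IsDiag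

/-- The local hypotheses on a family. -/
structure Inv : Prop where
  hom : ∀ k, ∀ α ∈ (F.G k).support, ∀ i, ∑ j, α j * F.w j i = F.χ k i
  homS : ∀ k, ∀ α ∈ (F.G k).support, ∀ β ∈ (coeff α (F.G k)).support, ∀ i,
    ∑ j, α j * F.wt j i + ∑ a, β a * F.wl a i = F.wk k i
  openU : IsOpen F.U
  invU : ∀ t, IsUnit t → ∀ z ∈ F.U, F.actT t z ∈ F.U
  closedE : IsClosed F.E
  invE : ∀ t, IsUnit t → ∀ z ∈ F.E, F.actT t z ∈ F.E
  baseE : ∀ l y y', (∀ j ∉ F.mov, y j = y' j) → (l, y) ∈ F.E → (l, y') ∈ F.E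
  zer_base : Disjoint F.zer F.mov
  lcB : IsLocallyClosed F.B
  invB : ∀ τ, IsUnit τ → ∀ l ∈ F.B, F.actL τ l ∈ F.B

/-- `θ = 3 θ₀`, and `N θ₀`, `N θ₀ ± e_i` are generated by monomials on the cone. -/
def Ample [DecidableEq R] (θ₀ : R → ℤ) (N : ℕ) : Prop :=
  F.θ = 3 • θ₀ ∧ 0 < N ∧ ∀ c : R → ℤ,
    (c = N • θ₀ ∨ ∃ i, c = N • θ₀ + Pi.single i 1 ∨ c = N • θ₀ - Pi.single i 1) →
    ∀ z ∈ F.cone, ∃ α : J → ℕ, (∀ i, ∑ j, α j * F.w j i = c i) ∧ ∏ j, z.2 j ^ α j ≠ 0

/-- The standing hypotheses on a family of compact targets. -/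
structure Good [DecidableEq R] : Prop extends F.Inv where
  deg : ∀ k, (F.G k).totalDegree ≠ 0
  freeB : ∀ τ, IsUnit τ → ∀ l ∈ F.B, F.actL τ l = l → τ = 1
  /-- the torus `S` acts properly on the parameters -/
  properB : ∀ (τ : ℕ → S → ℂ) (l : ℕ → Λ → ℂ) l₀ l₁, (∀ n, IsUnit (τ n)) → (∀ n, l n ∈ F.B) →
    l₀ ∈ F.B → l₁ ∈ F.B → Tendsto l atTop (𝓝 l₀) → Tendsto (fun n => F.actL (τ n) (l n)) atTop (𝓝 l₁) →
    ∃ C : ℝ, ∀ n i, ‖τ n i‖ ≤ C ∧ ‖(τ n i)⁻¹‖ ≤ C
  free : ∀ t : R → ℂ, IsUnit t → ∀ z ∈ F.cone, F.actT (1, t) z = z → t = 1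
  /-- the torus `R` acts properly on the cone, as seen by the fields of nonnegative weight -/
  proper : ∀ (t : ℕ → R → ℂ) z z', (∀ n, IsUnit (t n)) → z ∈ F.cone → z' ∈ F.cone →
    ∀ y : ℕ → J → ℂ, Tendsto y atTop (𝓝 z.2) →
    (∀ j, (∀ i, 0 ≤ F.w j i) → Tendsto (fun n => (F.actT (1, t n) (z.1, y n)).2 j) atTop (𝓝 (z'.2 j))) →
    ∃ C : ℝ, ∀ᶠ n in atTop, ∀ i, ‖t n i‖ ≤ C ∧ ‖(t n i)⁻¹‖ ≤ C
  /-- the family is proper over the parameters -/
  cpt : ∀ B' ⊆ F.B, IsCompact B' → ∃ C ⊆ F.cone, IsCompact C ∧ ∀ z ∈ F.cone, z.1 ∈ B' →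
    ∃ t : R → ℂ, IsUnit t ∧ F.actT (1, t) z ∈ C
  ample : ∃ θ₀ N, F.Ample θ₀ N
  mov_ne : F.mov.Nonempty

/-- `k` is large. -/
def Big [DecidableEq R] (k : ℕ) : Prop := ∃ θ₀ N, F.Ample θ₀ N ∧ 10 * N + 20 ≤ k

/-- The parameter set is a complex manifold of dimension `b`. -/
def Sm (b : ℕ) : Prop := ∀ l : F.B, Holo.IsMfd (Subtype.val : F.B → Λ → ℂ) b l

/-- An absolute problem: all base fields vanish. -/
def Abs : Prop := F.movᶜ ⊆ F.zer ∧ F.E = univ

end Fam

/-- A degeneration: the base fields are `b`, `c` with `b c = t`, `t` the parameter `none`; `B₀` is the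
set of the other parameters and `t` varies in the convex open neighbourhood `Ω` of `0`. -/
structure Fam.Deg {Λ₀ : Type} [Fintype Λ₀] [DecidableEq R] (F : Fam S (Option Λ₀) R J K) (i : R)
    (b c : J) (B₀ : Set (Λ₀ → ℂ)) (Ω : Set ℂ) : Prop where
  ne : b ≠ c
  mov : F.mov = {b, c}ᶜ
  zer : F.zer = ∅
  wb : F.w b = Pi.single i 1
  wc : F.w c = -Pi.single i 1
  θ : F.θ i = 0
  B : F.B = {l | l ∘ some ∈ B₀ ∧ l none ∈ Ω}
  opn : IsOpen Ω
  cvx : Convex ℝ Ω
  zero : 0 ∈ Ω
  E : F.E = {z | z.2 b * z.2 c = z.1 none}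

/-- The parameters with `t` fixed. -/
def slab {Λ₀ : Type} (B₀ : Set (Λ₀ → ℂ)) (t : ℂ) : Set (Option Λ₀ → ℂ) :=
  {l | l ∘ some ∈ B₀ ∧ l none = t}

namespace Ch

variable {ι : Type} [Fintype ι] [DecidableEq ι] (ch : Ch ι J) (ν κ : Type) [Fintype ν] [Fintype κ]

/-- Ordinary marked points `ν` and the two branches of the persistent nodes `κ`. -/
abbrev Mk : Type := ν ⊕ κ × Bool

/-- Parameters and chart. -/
abbrev WF (Λ : Type) : Type := (Λ → ℂ) × ch.W (Mk ν κ)

/-- The extra torus, the frames, one torus for each marked point and one for each node. -/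
abbrev AF (S : Type) : Type := (S → ℂ) × ch.A (ν ⊕ κ)

variable {ch ν κ}

/-- The two branches of a node are rescaled together. -/
def dup (s : ch.A (ν ⊕ κ)) : ch.A (Mk ν κ) := (s.1, s.2.1, fun n => s.2.2 (n.map id Prod.fst))

/-- Rescaling the fields. -/
noncomputable def scl {ν' : Type} [Fintype ν'] (c : J → ℂ) (x : ch.W ν') : ch.W ν' :=
  (x.1, x.2.1, x.2.2.1, fun j => c j • x.X j)

/-- The action. -/
noncomputable def actF (F : Wt S Λ R J) (s : ch.AF ν κ S) (x : ch.WF ν κ Λ) : ch.WF ν κ Λ :=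
  (F.actL s.1 x.1, act (dup s.2) (scl (fun j => ∏ i, s.1 i ^ F.wt j i) x.2))

variable (F : Fam S Λ R J K) (e : K → ι → ℕ)

/-- The action on functions. -/
noncomputable def ρF (s : ch.AF ν κ S) (f : ch.P K) : ch.P K :=
  ρ (dup s.2) (fun j => (∏ i, s.1 i ^ F.wt j i) • f.1 j, fun k => (∏ i, s.1 i ^ F.wk k i) • f.2 k)

variable (ch) in
/-- The degrees of the chart are compatible with the weights of the family. -/
structure Fits : Prop where
  wt : ∃ ℓ : R → ι → ℤ, ∀ j i, (ch.a (some j) i : ℤ) - ch.b j i = ∑ r, F.w j r * ℓ r i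
  le : ∀ k, ∀ α ∈ (F.G k).support, ∀ i, ∑ j, α j * ch.b j i ≤ e k i
  ne : ∀ k, e k ≠ 0

/-- `y` is the value at `c` of the section that induces the field `j`. -/
def Val {ν' : Type} [Fintype ν'] (x : ch.W ν') (j : J) (c : V ch.M) (y : ℂ) : Prop :=
  ∀ u, (c, u) ∈ gr x → ∀ μ, u (some j) (x.X j μ) = y * val μ c

/-- The value at `c` of the section that induces the field `j` (junk if there is none). -/
noncomputable def fld {ν' : Type} [Fintype ν'] (x : ch.W ν') (c : V ch.M) (j : J) : ℂ :=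
  Classical.epsilon (Val x j c)

variable (ch ν κ) in
/-- The smooth space with matching residues at the two branches of each persistent node. -/
def baseF (B : Set (Λ → ℂ)) : Set (ch.WF ν κ Λ) :=
  {x | x.1 ∈ B ∧ x.2 ∈ ch.base (Mk ν κ) ∧ ∀ q : κ, ∀ γ₁ γ₂ ρ₁ ρ₂,
    IsBranch ch.o (crv x.2) γ₁ → IsBranch ch.o (crv x.2) γ₂ → γ₁ 0 = x.2.p (.inr (q, false)) →
    γ₂ 0 = x.2.p (.inr (q, true)) → Lead x.2 γ₁ ρ₁ → Lead x.2 γ₂ ρ₂ → ρ₁ = (-1) ^ ch.k * ρ₂}

variable (ch ν κ) in
/-- The points where the base fields are sections with values in `E`, those in `zer` vanish, and they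
agree at the branches of the persistent nodes. -/
def adm : Set (ch.WF ν κ Λ) :=
  {x | x ∈ ch.baseF ν κ F.B ∧ (∀ j ∉ F.mov, ∀ c ∈ crv x.2, ∃ y, Val x.2 j c y) ∧
    (∀ c ∈ crv x.2, (x.1, fld x.2 c) ∈ F.E) ∧ (∀ j ∈ F.zer, x.2.X j = 0) ∧
    ∀ j ∉ F.mov, ∀ q : κ, fld x.2 (x.2.p (.inr (q, false))) j = fld x.2 (x.2.p (.inr (q, true))) j}

open Classical in
variable (ch κ) in
/-- The main stratum for the contact orders `u`: the base fields that are not in `zer` have divisor
`∑ u n j • p n`. -/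
def main (u : ν → J → ℕ) : Set (ch.WF ν κ Λ) :=
  {x | x ∈ ch.adm ν κ F ∧ ∀ j ∉ F.mov, j ∉ F.zer → ∀ γ, IsBranch ch.o (crv x.2) γ →
      analyticOrderAt (fun t => fld x.2 (γ t) j) 0 =
        (∑ n, if ∃ s : ι → ℂ, γ 0 = s • x.2.p (.inl n) then u n j else 0 : ℕ)}

variable (ch κ) in
/-- The closure of the main stratum. -/
def cyc (u : ν → J → ℕ) : Set (ch.WF ν κ Λ) := closure (ch.main κ F u) ∩ ch.baseF ν κ F.B

variable (ch ν κ) in
/-- All solutions. -/
def solF : Set (ch.WF ν κ Λ) := {x | x ∈ ch.baseF ν κ F.B ∧ x.2 ∈ ch.sol (Mk ν κ) (F.fib x.1)}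

variable (ch) in
/-- The polynomial functions for given supports. -/
noncomputable def polS (σ : K → Finset (J →₀ ℕ)) : Submodule ℂ (ch.P K) :=
  (Submodule.pi univ fun j => Submodule.span ℂ {f | ∃ (l l' : Tens ch.M (ch.b j) →L[ℂ] ℂ)
      (μ : Tens ch.M (ch.b j)) (y : ch.E (some j)),
        f = fun z m => l m.1 * l' m.2 * val μ z.1 * z.2 (some j) y}).prod
    (Submodule.pi univ fun k => Submodule.span ℂ {f | ∃ α ∈ σ k,
      ∃ (v : ∀ s : Σ i, Fin (e k i), Fin (ch.M s.1) → ℂ)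
        (y : ∀ s : Σ j, Fin (α j), ch.E (some s.1))
        (μ : Tens ch.M fun i => e k i - ∑ j, α j * ch.b j i),
        f = fun z ζ => (∏ s, ζ s.1 (v s)) * (∏ s, z.2 (some s.1) (y s)) * val μ z.1})

omit [Fintype R] [Fintype K] [DecidableEq ι] in
theorem pol_eq (T : Tgt R J K) : ch.pol T e = ch.polS e fun k => (T.F k).support := rfl

variable (ch) in
/-- The polynomial functions of the family. -/
noncomputable def polF : Submodule ℂ (ch.P K) := ch.polS e fun k => (F.G k).support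

/-- The section. -/
noncomputable def sctF (x : ch.WF ν κ Λ) : ch.P K := sct (F.fib x.1) e x.2

/-- The functions vanishing on the curve. -/
def vanF (x : ch.WF ν κ Λ) : Set (ch.P K) :=
  {f | f ∈ ch.polF F e ∧ ∀ z ∈ gr x.2, (∀ j, f.1 j z = 0) ∧ ∀ k, f.2 k z = 0}

/-- The obstruction space: only the movable fields are deformed. -/
def obsF (x : ch.WF ν κ Λ) : Set (ch.P K) :=
  {f | f ∈ ch.polF F e ∧ ∀ z ∈ gr x.2, ∃ y : ∀ j, Tens ch.M (ch.b j) →L[ℂ] ℂ,
    (∀ j ∉ F.mov, y j = 0) ∧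
    (∀ j m, f.1 j z m = val m.2 z.1 * y j m.1 - val m.1 z.1 * y j m.2) ∧
    ∀ k ζ, f.2 k z ζ = deriv (fun ε : ℂ => hmg (F.fib x.1) e k ζ z.1
      fun j => z.2 (some j) (x.2.X j (pw ζ _)) + ε * y j (pw ζ _)) 0}

/-- An extension of the obstruction bundle over the invariant set `O`: the data `N`, `r` of the
definition of the virtual class. -/
structure IsExt (O : Set (ch.WF ν κ Λ)) (N : ch.WF ν κ Λ → Submodule ℂ (ch.P K)) (r : ℕ) : Prop where
  inv : ∀ s, IsUnit s → ∀ x ∈ O, actF F.toWt s x ∈ O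
  lc : LocallyCompactSpace O
  t2 : T2Space (Quo (actF F.toWt) O)
  t2' : T2Space (Tot (actF F.toWt) (ρF F) O (fun _ => ch.polF F e) N)
  van_le : ∀ x ∈ O, vanF F e x ⊆ N x
  le_pol : ∀ x ∈ O, N x ≤ ch.polF F e
  rank : ∀ x ∈ O, Module.finrank ℂ (N x) = r
  zero : ∀ x ∈ O, sctF F e x ∈ N x → x ∈ ch.solF ν κ F
  equi : ∀ x ∈ O, ∀ s, IsUnit s → ∀ f ∈ N x, ρF F s f ∈ N (actF F.toWt s x)
  closed : IsClosed {z : O × ch.P K | z.2 ∈ N z.1}
  disj : ∀ x ∈ O, x ∈ ch.solF ν κ F → ∀ f ∈ obsF F e x, f ∈ N x → f ∈ vanF F e x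
  span : ∀ x ∈ O, x ∈ ch.solF ν κ F → ∀ f ∈ ch.polF F e, ∃ f' ∈ obsF F e x, f - f' ∈ N x

/-- The virtual class for the base cycle `S₀`. -/
def IsVirF (S₀ : Set (ch.WF ν κ Λ)) (v : BM (Quo (actF F.toWt) (ch.solF ν κ F ∩ S₀))) : Prop :=
  ∃ (O : Set (ch.WF ν κ Λ)) (hO : ch.solF ν κ F ∩ S₀ ⊆ O) (N : ch.WF ν κ Λ → Submodule ℂ (ch.P K))
    (r : ℕ) (β : BM (Quo (actF F.toWt) O)) (t : Coch (Tot (actF F.toWt) (ρF F) O (fun _ => ch.polF F e) N)),
    (∃ O', IsOpen O' ∧ O = S₀ ∩ O') ∧ IsExt F e O N r ∧ IsFund (actF F.toWt) O β ∧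
    IsThomOf (actF F.toWt) (ρF F) O (fun _ => ch.polF F e) N t ∧
    Gys (Quo.incl (actF F.toWt) hO) (pull (sec (actF F.toWt) (ρF F) O (fun _ => ch.polF F e) N (sctF F e)) t) β v

/-- The moduli space for the base cycle `S₀`. -/
abbrev ModS (S₀ : Set (ch.WF ν κ Λ)) : Type := Quo (actF F.toWt) (ch.solF ν κ F ∩ S₀)

/-- The virtual class (junk if it does not exist). -/
noncomputable def virF (S₀ : Set (ch.WF ν κ Λ)) : BM (ModS F S₀) := Classical.epsilon (IsVirF F e S₀)

omit F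
variable {F : Wt S Λ R J} {Z : Set (ch.WF ν κ Λ)}

/-- The parameter and the values of the fields at a marked point. -/
noncomputable def vl (x : ch.WF ν κ Λ) (n : Mk ν κ) : (Λ → ℂ) × (J → ℂ) := (x.1, fld x.2 (x.2.p n))

/-- The parameter and the values of the fields at two marked points. -/
noncomputable def vl2 (x : ch.WF ν κ Λ) (n n' : Mk ν κ) : (Λ → ℂ) × (J → ℂ) × (J → ℂ) :=
  (x.1, fld x.2 (x.2.p n), fld x.2 (x.2.p n'))

open Classical in
/-- Pull-back of a cochain from the parameter space (junk if the parameters are not in `A`). -/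
noncomputable def parF (A : Set (Λ → ℂ)) (a : Coch (F.Bs A)) : Coch (Quo (actF F) Z) :=
  if h : ∀ z : Quo (actF F) Z, (Quo.out z).1.1 ∈ A then pull (fun z => Quo.mk F.actL ⟨_, h z⟩) a else 0

open Classical in
/-- Pull-back of a cochain along the evaluation at the marked point `n` (junk if the values are not
in `A`). -/
noncomputable def evF (n : Mk ν κ) (A : Set ((Λ → ℂ) × (J → ℂ))) (a : Coch (F.X A)) :
    Coch (Quo (actF F) Z) :=
  if h : ∀ z : Quo (actF F) Z, vl (Quo.out z).1 n ∈ A then pull (fun z => Quo.mk F.actT ⟨_, h z⟩) a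
  else 0

open Classical in
/-- Pull-back of a cochain along the evaluation at the two branches of the persistent node `q`. -/
noncomputable def evN (q : κ) (A : Set ((Λ → ℂ) × (J → ℂ) × (J → ℂ))) (a : Coch (Quo F.act2 A)) :
    Coch (Quo (actF F) Z) :=
  if h : ∀ z : Quo (actF F) Z, vl2 (Quo.out z).1 (.inr (q, false)) (.inr (q, true)) ∈ A
  then pull (fun z => Quo.mk F.act2 ⟨_, h z⟩) a else 0

open Classical in
/-- Pull-back of a cochain along the evaluation at two marked points. -/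
noncomputable def evT (n n' : Mk ν κ) (A : Set ((Λ → ℂ) × (J → ℂ) × (J → ℂ)))
    (a : Coch (Quo F.act3 A)) : Coch (Quo (actF F) Z) :=
  if h : ∀ z : Quo (actF F) Z, vl2 (Quo.out z).1 n n' ∈ A
  then pull (fun z => Quo.mk F.act3 ⟨_, h z⟩) a else 0

/-- The cotangent line class at a marked point or a branch. -/
noncomputable def psiF (n : Mk ν κ) : Coch (Quo (actF F) Z) :=
  -eulerC (actF F) (fun s (v : V ch.M) i => (dup s.2).2.2 n i • s.2.1 i (v i)) Z
    (fun x => Submodule.span ℂ {v | ∃ γ : ℂ → V ch.M, AnalyticAt ℂ γ 0 ∧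
      (∀ᶠ t in 𝓝 0, γ t ∈ crv x.2) ∧ γ 0 = x.2.p n ∧ v = deriv γ 0})
    fun x => Submodule.span ℂ (range fun i => Pi.single i (x.2.p n i))

end Ch

namespace Fam

variable (F : Fam S Λ R J K) [DecidableEq R]

/-- The chart with parameters `k`, `D`; `g` is the arithmetic genus of the curve normalised at the
persistent nodes and `n` counts marked points and branches. It only depends on `w` and `θ`. -/
noncomputable def chart (g : ℤ) (n : ℕ) (d : R → ℤ) (k D : ℕ) : Ch (Option R) J :=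
  (⟨F.w, ∅, Empty.elim, F.θ⟩ : Tgt R J Empty).chart g n d k D

omit [Fintype S] [Fintype Λ] [Fintype K] in
theorem chart_eq (l : Λ → ℂ) (g : ℤ) (n : ℕ) (d : R → ℤ) (k D : ℕ) :
    F.chart g n d k D = (F.fib l).chart g n d k D := rfl

/-- The degrees of the test forms for the equations. -/
noncomputable def tdeg {ι : Type} (ch : Ch ι J) : K → ι → ℕ :=
  fun q o => (F.G q).totalDegree * ∑ j, ch.b j o

end Fam

/-- A target as a family without parameters and base fields. -/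
noncomputable def Tgt.fam (T : Tgt R J K) (χ : K → R → ℤ) : Fam Empty Empty R J K where
  w := T.w
  wt := fun _ => Empty.elim
  wl := Empty.elim
  θ := T.θ
  χ := χ
  wk := fun _ => Empty.elim
  G := fun k => MvPolynomial.map C (T.F k)
  B := univ
  U := {z | z.2 ∈ T.U}
  E := univ
  mov := univ
  zer := ∅

end Vale.Agent.P269
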