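import Vale.Agent.P269.Gen.Defs
import Vale.Agent.P269.Pt.Fld
import Vale.Agent.P269.Base.Act

/-!
# The action on the ambient space of a family
-/

set_option linter.unusedSectionVars false

namespace Vale.Agent.P269

open P291Z Set Function Topology Filter Holo Base

variable {S Λ R J K ι ν ν' κ : Type} [Fintype S] [Fintype Λ] [Fintype R] [Fintype J] [Fintype K]
  [Fintype ι] [DecidableEq ι] [Fintype ν] [Fintype ν'] [Fintype κ]

theorem isUnit_pi_iff {t : S → ℂ} : IsUnit t ↔ ∀ i, t i ≠ 0 := by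
  simp [Pi.isUnit_iff]

theorem prod_zpow_ne {t : S → ℂ} (ht : ∀ i, t i ≠ 0) (a : S → ℤ) : ∏ i, t i ^ a i ≠ 0 :=
  Finset.prod_ne_zero_iff.2 fun i _ => zpow_ne_zero _ (ht i)

theorem prod_zpow_mul (s t : S → ℂ) (a : S → ℤ) :
    ∏ i, (s * t) i ^ a i = (∏ i, s i ^ a i) * ∏ i, t i ^ a i := by
  simp only [Pi.mul_apply, mul_zpow, Finset.prod_mul_distrib]

theorem an_prod_zpow {P : Type*} [NormedAddCommGroup P] [NormedSpace ℂ P] {t : P → S → ℂ} {q : P}
    (h : AnalyticAt ℂ t q) (ht : ∀ i, t q i ≠ 0) (a : S → ℤ) :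
    AnalyticAt ℂ (fun y => ∏ i, t y i ^ a i) q :=
  Finset.analyticAt_fun_prod _ fun i _ => (analyticAt_pi_iff.1 h i).fun_zpow (ht i)

theorem an_smul_clm {P E E' : Type*} [NormedAddCommGroup P] [NormedSpace ℂ P] [NormedAddCommGroup E]
    [NormedSpace ℂ E] [NormedAddCommGroup E'] [NormedSpace ℂ E'] {a : P → ℂ} {T : P → E →L[ℂ] E'}
    {q : P} (ha : AnalyticAt ℂ a q) (hT : AnalyticAt ℂ T q) :
    AnalyticAt ℂ (fun y => a y • T y) q := ha.smul hT

theorem order_const_mul {c : ℂ} (hc : c ≠ 0) (f : ℂ → ℂ) (z : ℂ) :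
    analyticOrderAt (fun t => c * f t) z = analyticOrderAt f z := by
  by_cases h : AnalyticAt ℂ f z
  · exact (analyticOrderAt_mul analyticAt_const h).trans
      (by rw [analyticAt_const.analyticOrderAt_eq_zero.2 hc, zero_add])
  · rw [analyticOrderAt_of_not_analyticAt h, analyticOrderAt_of_not_analyticAt fun k => h ?_]
    simpa [← mul_assoc, inv_mul_cancel₀ hc] using (analyticAt_const (v := c⁻¹)).fun_mul k

namespace Wt

variable (F : Wt S Λ R J)

theorem actL_one (l : Λ → ℂ) : F.actL 1 l = l := funext fun a => by simp [actL]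

theorem actL_mul (s t : S → ℂ) (l : Λ → ℂ) : F.actL (s * t) l = F.actL s (F.actL t l) :=
  funext fun a => by simp only [actL, prod_zpow_mul, mul_assoc]

theorem actT_one (z : (Λ → ℂ) × (J → ℂ)) : F.actT 1 z = z :=
  Prod.ext (F.actL_one _) (funext fun j => by simp [actT])

theorem actT_mul (s t : (S → ℂ) × (R → ℂ)) (z : (Λ → ℂ) × (J → ℂ)) :
    F.actT (s * t) z = F.actT s (F.actT t z) :=
  Prod.ext (F.actL_mul _ _ _) (funext fun j => by
    simp only [actT, Prod.fst_mul, Prod.snd_mul, prod_zpow_mul]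
    ring)

end Wt

theorem zpow_sum_ne {a : ℂ} (ha : a ≠ 0) (f : J → ℤ) : a ^ ∑ j, f j = ∏ j, a ^ f j := by
  classical
  exact Finset.induction_on Finset.univ (by simp) fun j s h e => by
    rw [Finset.sum_insert h, Finset.prod_insert h, zpow_add₀ ha, e]

theorem prod_pow_zpow {t : S → ℂ} (ht : ∀ i, t i ≠ 0) (w : J → S → ℤ) (α : J → ℕ) :
    ∏ j, (∏ i, t i ^ w j i) ^ α j = ∏ i, t i ^ ∑ j, α j * w j i := by
  simp only [← Finset.prod_pow]
  rw [Finset.prod_comm]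
  refine Finset.prod_congr rfl fun i _ => ?_
  rw [zpow_sum_ne (ht i)]
  exact Finset.prod_congr rfl fun j _ => by rw [← zpow_natCast, ← zpow_mul, mul_comm]

namespace Fam.Inv

open MvPolynomial

variable {F : Fam S Λ R J K} (h : F.Inv) {t : (S → ℂ) × (R → ℂ)} (ht : IsUnit t)
include h ht

theorem eval_act (z : (Λ → ℂ) × (J → ℂ)) (k : K) :
    eval (F.actT t z).2 ((F.fib (F.actT t z).1).F k) =
      (∏ i, t.1 i ^ F.wk k i) * (∏ i, t.2 i ^ F.χ k i) * eval z.2 ((F.fib z.1).F k) := by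
  have a := isUnit_pi_iff.1 (Prod.isUnit_iff.1 ht).1
  have b := isUnit_pi_iff.1 (Prod.isUnit_iff.1 ht).2
  simp only [fib, eval_map, eval₂_eq', Finset.mul_sum]
  refine Finset.sum_congr rfl fun α hα => ?_
  simp only [eval_eq', Finset.sum_mul, Finset.mul_sum]
  refine Finset.sum_congr rfl fun β hβ => ?_
  simp only [Wt.actT, Wt.actL, mul_pow, Finset.prod_mul_distrib, prod_pow_zpow a, prod_pow_zpow b,
    h.hom k α hα, ← h.homS k α hα β hβ, zpow_add₀ (a _)]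
  ring

theorem cone_act {z : (Λ → ℂ) × (J → ℂ)} (hz : z ∈ F.cone) : F.actT t z ∈ F.cone :=
  ⟨h.invB _ (Prod.isUnit_iff.1 ht).1 _ hz.1, ⟨h.invU t ht z hz.2.1.1, h.invE t ht z hz.2.1.2.1,
    fun j hj => by simp only [Wt.actT, hz.2.1.2.2 j hj, mul_zero]⟩,
    fun k => by rw [h.eval_act ht, hz.2.2, mul_zero]⟩

end Fam.Inv

namespace Ch

variable {ch : Ch ι J}

noncomputable instance instNormedRingAF : NormedRing (ch.AF ν κ S) := inferInstance

noncomputable instance instNormedAlgebraAF :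
    @NormedAlgebra ℂ (ch.AF ν κ S) _ NormedRing.toSeminormedRing := Prod.normedAlgebra ℂ

instance : FiniteDimensional ℂ (ch.AF ν κ S) := inferInstance

instance : CompleteSpace (ch.AF ν κ S) := inferInstance

instance : FiniteDimensional ℂ (ch.WF ν κ Λ) := inferInstance

theorem finrank_AF : Module.finrank ℂ (ch.AF ν κ S) = Fintype.card S + (∑ i, ch.M i * ch.M i +
    (∑ l, ch.h l * ch.h l + (Fintype.card ν + Fintype.card κ) * Fintype.card ι)) := by
  have : Module.Free ℂ (ch.A (ν ⊕ κ)) := Module.Free.of_divisionRing _ _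
  rw [Module.finrank_prod, finrank_A, Module.finrank_fintype_fun_eq_card, Fintype.card_sum]

theorem dup_one : dup (1 : ch.A (ν ⊕ κ)) = 1 := rfl

theorem dup_mul (s t : ch.A (ν ⊕ κ)) : dup (s * t) = dup s * dup t := rfl

theorem isUnit_dup {s : ch.A (ν ⊕ κ)} (h : IsUnit s) : IsUnit (dup s) :=
  Cv.isUnit_iff.2 ⟨(Cv.isUnit_iff.1 h).1, (Cv.isUnit_iff.1 h).2.1,
    fun _ => (Cv.isUnit_iff.1 h).2.2 _⟩

theorem isUnitF_iff {s : ch.AF ν κ S} : IsUnit s ↔ (∀ i, s.1 i ≠ 0) ∧ IsUnit s.2 := by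
  rw [Prod.isUnit_iff, isUnit_pi_iff]

theorem isUnit_S {s : ch.AF ν κ S} (h : IsUnit s) : IsUnit s.1 := (Prod.isUnit_iff.1 h).1

theorem ne_S {s : ch.AF ν κ S} (h : IsUnit s) (i : S) : s.1 i ≠ 0 := (isUnitF_iff.1 h).1 i

theorem isUnit_dupF {s : ch.AF ν κ S} (h : IsUnit s) : IsUnit (dup s.2) :=
  isUnit_dup (isUnitF_iff.1 h).2

section scl

variable (a b : J → ℂ) (x : ch.W ν')

@[simp] theorem scl_Q : (scl a x).Q = x.Q := rfl
@[simp] theorem scl_p : (scl a x).p = x.p := rfl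
@[simp] theorem scl_Ξ : (scl a x).Ξ = x.Ξ := rfl
@[simp] theorem scl_X (j : J) : (scl a x).X j = a j • x.X j := rfl
@[simp] theorem gr_scl : gr (scl a x) = gr x := rfl
@[simp] theorem crv_scl : crv (scl a x) = crv x := rfl
@[simp] theorem lead_scl : Lead (scl a x) = Lead x := rfl
@[simp] theorem scl_mem_base : scl a x ∈ ch.base ν' ↔ x ∈ ch.base ν' := Iff.rfl

theorem scl_one : scl 1 x = x := W.ext (fun _ => rfl) (fun _ => rfl) rfl fun _ => one_smul _ _

theorem scl_mul : scl (a * b) x = scl a (scl b x) :=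
  W.ext (fun _ => rfl) (fun _ => rfl) rfl fun _ => mul_smul _ _ _

theorem scl_act (s : ch.A ν') : scl a (act s x) = act s (scl a x) :=
  W.ext (fun _ => rfl) (fun _ => rfl) rfl fun j => ContinuousLinearMap.ext fun _ =>
    (map_smul (s.2.1 (some j)) _ _).symm

variable {a x} {j : J} {c : V ch.M} {y : ℂ}

theorem Val.scl (h : Val x j c y) (a : J → ℂ) : Val (scl a x) j c (a j * y) := fun u hu μ =>
  (map_smul (u (some j)) (a j) (x.X j μ)).trans (by rw [h u hu, smul_eq_mul, mul_assoc])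

theorem val_act {s : ch.A ν'} (hs : IsUnit s) :
    Val (act s x) j (fun i => s.1 i (c i)) y ↔ Val x j c y := by
  refine ⟨fun h u hu μ => ?_, fun h u hu μ => h _ ((Cv.gr_act hs).1 hu) (sub s _ μ)⟩
  obtain ⟨μ, rfl⟩ := Cv.sub_surj hs _ μ
  exact (congrArg (u (some j)) (Cv.inv_ap (isUnit_E hs _) _).symm).trans
    (h _ ((gr_act hs).1 hu) μ)

theorem fld_act {s : ch.A ν'} (hs : IsUnit s) : fld (act s x) (fun i => s.1 i (c i)) = fld x c :=
  funext fun _ => congrArg Classical.epsilon (funext fun _ => propext (val_act hs))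

theorem Val.smul (h : Val x j c y) {t : ι → ℂ} (ht : ∀ i, t i ≠ 0) :
    Val x j (t • c) ((∏ i, t i ^ ch.wd j i) * y) := fun u hu μ => by
  have := h _ (inv_smul_smul' ht c ▸ gr_smul hu (s := t⁻¹) fun i => inv_ne_zero (ht i)) μ
  have e : chr (ch.a (some j)) t * chr (ch.a (some j)) t⁻¹ = 1 := by
    rw [← chr_mul, show t * t⁻¹ = 1 from funext fun i => mul_inv_cancel₀ (ht i), chr_one]
  rw [smul_apply, smul_eq_mul] at this
  rw [val_smul, ← one_mul (u _ _), ← e, mul_assoc, this, Cv.chr_wd ht]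
  ring

theorem val_fld (h : ∃ y, Val x j c y) : Val x j c (fld x c j) := Classical.epsilon_spec h

theorem fld_of_zero (hc : c ∈ crv x) (h : x.X j = 0) : fld x c j = 0 :=
  Cv.fld_eq hc fun u _ μ => by simp [h]

theorem mem_crv_act {s : ch.A ν'} (hs : IsUnit s) :
    c ∈ crv (act s x) ↔ ∃ c' ∈ crv x, (fun i => s.1 i (c' i)) = c := by
  rw [crv_act hs]
  rfl

theorem branch_act {s : ch.A ν'} (hs : IsUnit s) {o : ι} {γ : ℂ → V ch.M}
    (h : IsBranch o (crv (act s x)) γ) :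
    ∃ γ', IsBranch o (crv x) γ' ∧ γ = fun z i => s.1 i (γ' z i) := by
  obtain ⟨u, rfl⟩ := hs
  refine ⟨_, h.map' (g := fun i => (gU u i).symm) ?_, funext fun z => funext fun i =>
    ((gU u i).apply_symm_apply _).symm⟩
  rw [crv_actU]
  rintro _ ⟨c, hc, rfl⟩
  exact ((gV (gU u)).symm_apply_apply c).symm ▸ hc

theorem orb_act {s : ch.A ν'} (hs : IsUnit s) (n : ν') :
    (∃ t : ι → ℂ, (fun i => s.1 i (c i)) = t • (act s x).p n) ↔ ∃ t : ι → ℂ, c = t • x.p n := by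
  obtain ⟨u, rfl⟩ := hs
  simp only [p_actU, ← gV_gU, smul_smul, ← gV_smul, (gV (gU u)).injective.eq_iff]
  exact ⟨fun ⟨t, h⟩ => ⟨_, h⟩, fun ⟨t, h⟩ => ⟨t * ((u : ch.A ν').2.2 n)⁻¹, by
    rw [h, mul_assoc, mul_smul t, mul_smul, inv_smul_smul' (tor_ne u n)]⟩⟩

end scl

variable {F : Wt S Λ R J} {s t : ch.AF ν κ S} {x : ch.WF ν κ Λ}

theorem actF_fst : (actF F s x).1 = F.actL s.1 x.1 := rfl

theorem actF_snd : (actF F s x).2 = act (dup s.2) (scl (fun j => ∏ i, s.1 i ^ F.wt j i) x.2) := rfl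

theorem actF_one (x : ch.WF ν κ Λ) : actF F 1 x = x :=
  Prod.ext (F.actL_one _) ((act_one _).trans (by
    convert scl_one x.2
    simp))

theorem actF_mul (s t : ch.AF ν κ S) (x : ch.WF ν κ Λ) :
    actF F (s * t) x = actF F s (actF F t x) :=
  Prod.ext (F.actL_mul _ _ _) (by
    rw [actF_snd, actF_snd, actF_snd, scl_act, ← act_mul, ← scl_mul]
    exact congrArg (fun a => act _ (scl a _)) (funext fun j => prod_zpow_mul _ _ _))

theorem an_actF {P : Type*} [NormedAddCommGroup P] [NormedSpace ℂ P] {s : P → ch.AF ν κ S}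
    {x : P → ch.WF ν κ Λ} {q : P} (hs : AnalyticAt ℂ s q) (hx : AnalyticAt ℂ x q)
    (h : ∀ i, (s q).1 i ≠ 0) : AnalyticAt ℂ (fun y => actF F (s y) (x y)) q := by
  have a : AnalyticAt ℂ (fun y => (s y).1) q := analyticAt_fst.comp hs
  have b : AnalyticAt ℂ (fun y => (x y).2) q := analyticAt_snd.comp hx
  have d : AnalyticAt ℂ (fun y => (s y).2) q := analyticAt_snd.comp hs
  refine (analyticAt_pi_iff.2 fun l => (an_prod_zpow a h _).mul
    (analyticAt_pi_iff.1 (analyticAt_fst.comp hx) l)).prod (an_act ?_ (W.an_iff.2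
      ⟨fun l => (W.an_Q b l :), fun n => (W.an_p b n :), (W.an_Ξ b :),
        fun j => an_smul_clm (an_prod_zpow a h _) (W.an_X b j)⟩))
  exact (analyticAt_fst.comp d).prod ((analyticAt_fst.comp (analyticAt_snd.comp d)).prod
    (analyticAt_pi_iff.2 fun n =>
      analyticAt_pi_iff.1 (analyticAt_snd.comp (analyticAt_snd.comp d)) _))

theorem isActF_of {Z : Set (ch.WF ν κ Λ)} (h : ∀ s, IsUnit s → ∀ x ∈ Z, actF F s x ∈ Z) :
    IsAct (actF F) Z :=
  ⟨fun x _ => actF_one x, fun a b _ _ x _ => actF_mul a b x, h,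
    fun _ ha _ _ => an_actF analyticAt_fst analyticAt_snd (ne_S ha)⟩

instance isActF_univ : IsAct (actF F) (univ : Set (ch.WF ν κ Λ)) := isActF_of fun _ _ _ _ => trivial

theorem continuous_actF (hs : IsUnit s) : Continuous (actF F s : ch.WF ν κ Λ → _) :=
  continuous_iff_continuousAt.2 fun _ =>
    (an_actF analyticAt_const analyticAt_id (ne_S hs)).continuousAt

theorem mem_crv_actF (hs : IsUnit s) {c : V ch.M} :
    c ∈ crv (actF F s x).2 ↔ ∃ c' ∈ crv x.2, (fun i => s.2.1 i (c' i)) = c :=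
  mem_crv_act (isUnit_dupF hs)

theorem Val.actF (hs : IsUnit s) {j : J} {c : V ch.M} {y : ℂ} (h : Val x.2 j c y) :
    Val (actF F s x).2 j (fun i => s.2.1 i (c i)) ((∏ i, s.1 i ^ F.wt j i) * y) :=
  (val_act (isUnit_dupF hs)).2 (h.scl _)

theorem fld_actF (hs : IsUnit s) {j : J} {c : V ch.M} (hc : c ∈ crv x.2) (h : ∃ y, Val x.2 j c y) :
    fld (actF F s x).2 (fun i => s.2.1 i (c i)) j = (∏ i, s.1 i ^ F.wt j i) * fld x.2 c j :=
  Cv.fld_eq ((mem_crv_actF hs).2 ⟨c, hc, rfl⟩) ((val_fld h).actF hs)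

theorem actF_p (n : Mk ν κ) :
    (actF F s x).2.p n = (dup s.2).2.2 n • fun i => s.2.1 i (x.2.p n i) := rfl

theorem fld_actF_p (hs : IsUnit s) {j : J} {n : Mk ν κ} (hc : x.2.p n ∈ crv x.2)
    (h : ∃ y, Val x.2 j (x.2.p n) y) : fld (actF F s x).2 ((actF F s x).2.p n) j =
      (∏ i, s.1 i ^ F.wt j i) * (∏ i, (dup s.2).2.2 n i ^ ch.wd j i) * fld x.2 (x.2.p n) j := by
  have a := (Cv.isUnit_iff.1 (isUnit_dupF hs)).2.2 n
  refine (Cv.fld_eq (crv_smul ((mem_crv_actF hs).2 ⟨_, hc, rfl⟩) a)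
    (((val_fld h).actF hs).smul a)).trans ?_
  ring

theorem actF_mem_baseF (hs : IsUnit s) {B : Set (Λ → ℂ)} (h : x ∈ ch.baseF ν κ B)
    (hB : F.actL s.1 x.1 ∈ B) : actF F s x ∈ ch.baseF ν κ B := by
  have a := isUnit_dupF hs
  refine ⟨hB, Cv.act_mem_base h.2.1 a, fun q => ?_⟩
  obtain ⟨X, _, _, _, R, N, A, π, u, p, ξ, c⟩ := Cv.exists_cr h.2.1
  obtain ⟨t, -, e⟩ := c.mark (.inr (q, false))
  obtain ⟨t', -, e'⟩ := c.mark (.inr (q, true))
  have k : ∀ n t, x.2.p n = t • π (p n) → (actF F s x).2.p n =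
      ((dup s.2).2.2 n * t) • fun i => (dup s.2).1 i (π (p n) i) := fun n t e => by
    rw [actF_p, e, mul_smul]
    exact congrArg _ (funext fun i => map_smul (s.2.1 i) (t i) _)
  refine (((c.setX _).act a).lead_iff (k _ _ e) (k _ _ e') _).2 ?_
  rw [prod_zpow_mul, prod_zpow_mul, mul_assoc, (c.lead_iff e e' _).1 (h.2.2 q), mul_left_comm,
    mul_assoc]
  rfl

instance isActF_baseF : IsAct (actF F) (ch.baseF ν κ (univ : Set (Λ → ℂ))) :=
  isActF_of fun _ hs _ h => actF_mem_baseF hs h trivial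

variable {F : Fam S Λ R J K}

theorem actF_mem_adm (hF : F.Inv) (hs : IsUnit s) (h : x ∈ ch.adm ν κ F) :
    actF F.toWt s x ∈ ch.adm ν κ F := by
  obtain ⟨h1, h2, h3, h4, h5⟩ := h
  refine ⟨actF_mem_baseF hs h1 (hF.invB _ (isUnit_S hs) _ h1.1), fun j hj c hc => ?_,
    fun c hc => ?_, fun j hj => ?_, fun j hj q => ?_⟩
  · obtain ⟨c, a, rfl⟩ := (mem_crv_actF hs).1 hc
    exact (h2 j hj c a).imp' _ fun _ b => b.actF hs
  · obtain ⟨c, a, rfl⟩ := (mem_crv_actF hs).1 hc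
    refine hF.baseE _ _ _ (fun j hj => ?_)
      (hF.invE (s.1, 1) (Prod.isUnit_iff.2 ⟨isUnit_S hs, isUnit_one⟩) _ (h3 c a))
    rw [fld_actF hs a (h2 j hj c a)]
    simp only [Pi.one_apply, one_zpow, Finset.prod_const_one, mul_one]
  · refine ContinuousLinearMap.ext fun μ => ?_
    simp [actF_snd, act_X, h4 j hj]
  · have a := fun n => (h1.2.1.2.2.2.1 n).1
    rw [fld_actF_p hs (a _) (h2 j hj _ (a _)), fld_actF_p hs (a _) (h2 j hj _ (a _)), h5 j hj]
    rfl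

theorem actF_mem_main (hF : F.Inv) (hs : IsUnit s) {u : ν → J → ℕ} (h : x ∈ ch.main κ F u) :
    actF F.toWt s x ∈ ch.main κ F u := by
  classical
  refine ⟨actF_mem_adm hF hs h.1, fun j hj hz γ hγ => ?_⟩
  obtain ⟨γ, a, rfl⟩ := branch_act (isUnit_dupF hs) hγ
  have e : (fun t => fld (actF F.toWt s x).2 (fun i => s.2.1 i (γ t i)) j) =ᶠ[𝓝 0]
      fun t => (∏ i, s.1 i ^ F.wt j i) * fld x.2 (γ t) j :=
    a.mem.mono fun t b => fld_actF hs b (h.1.2.1 j hj _ b)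
  refine (analyticOrderAt_congr e).trans ((order_const_mul (prod_zpow_ne (ne_S hs) _) _ _).trans
    ((h.2 j hj hz γ a).trans ?_))
  exact congrArg _ (Finset.sum_congr rfl fun n _ =>
    if_congr (orb_act (x := scl _ x.2) (isUnit_dupF hs) _).symm rfl rfl)

theorem actF_mem_cyc (hF : F.Inv) (hs : IsUnit s) {u : ν → J → ℕ} (h : x ∈ ch.cyc κ F u) :
    actF F.toWt s x ∈ ch.cyc κ F u :=
  ⟨map_mem_closure (continuous_actF hs) h.1 fun _ => actF_mem_main hF hs,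
    actF_mem_baseF hs h.2 (hF.invB _ (isUnit_S hs) _ h.2.1)⟩

theorem mem_solF : x ∈ ch.solF ν κ F ↔ x ∈ ch.baseF ν κ F.B ∧
    ∀ c ∈ crv x.2, (∀ j, ∃ y, Val x.2 j c y) ∧ (x.1, fld x.2 c) ∈ F.cone := by
  refine and_congr_right fun h => ⟨fun a c hc => ?_, fun a => ⟨h.2.1, fun z hz => ?_⟩⟩
  · obtain ⟨u, hu⟩ := mem_crv.1 hc
    obtain ⟨y, b, d⟩ := a.2 _ hu
    have e : ∀ j, Val x.2 j c (y j) := fun j v hv μ => gr_unique hu hv (h.2.1.1 _) ▸ d j μ
    exact ⟨fun j => ⟨_, e j⟩, h.1, (funext fun j => Cv.fld_eq hc (e j) : fld x.2 c = y) ▸ b⟩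
  · obtain ⟨b, d⟩ := a z.1 ⟨z, hz, rfl⟩
    exact ⟨_, d.2, fun j => val_fld (b j) _ hz⟩

theorem actF_mem_solF (hF : F.Inv) (hs : IsUnit s) (h : x ∈ ch.solF ν κ F) :
    actF F.toWt s x ∈ ch.solF ν κ F := by
  obtain ⟨a, b⟩ := mem_solF.1 h
  refine mem_solF.2 ⟨actF_mem_baseF hs a (hF.invB _ (isUnit_S hs) _ a.1), fun c hc => ?_⟩
  obtain ⟨c, d, rfl⟩ := (mem_crv_actF hs).1 hc
  refine ⟨fun j => ((b c d).1 j).imp' _ fun _ e => e.actF hs, ?_⟩
  refine mem_of_eq_of_mem (y := F.actT (s.1, 1) (x.1, fld x.2 c))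
    (Prod.ext rfl (funext fun j => (fld_actF hs d ((b c d).1 j)).trans ?_)) (hF.cone_act (t := (s.1, 1)) (Prod.isUnit_iff.2 ⟨isUnit_S hs, isUnit_one⟩) (b c d).2)
  simp only [Wt.actT, Pi.one_apply, one_zpow, Finset.prod_const_one, mul_one]

theorem solF_subset_adm_iff (h : x ∈ ch.solF ν κ F) : x ∈ ch.adm ν κ F ↔ ∀ j ∉ F.mov, ∀ q : κ,
    fld x.2 (x.2.p (.inr (q, false))) j = fld x.2 (x.2.p (.inr (q, true))) j := by
  obtain ⟨a, b⟩ := mem_solF.1 h
  refine ⟨fun k => k.2.2.2.2, fun k => ⟨a, fun j _ c hc => (b c hc).1 j,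
    fun c hc => (b c hc).2.2.1.2.1, fun j hj => ?_, k⟩⟩
  obtain ⟨X, _, _, _, R, N, A, π, u, p, ξ, c⟩ := Cv.exists_cr a.2.1
  refine c.ind_zero.1 fun y μ => ?_
  have e := b _ (c.par.mem y)
  exact (val_fld (e.1 j) _ (c.gr y) μ).trans (congrArg (· * _) (e.2.2.1.2.2 j hj))

/-- the values at a marked point change by the torus -/
theorem vl_actF {ℓ : R → ι → ℤ} (hl : ∀ j i, ch.wd j i = ∑ r, F.w j r * ℓ r i) (hs : IsUnit s)
    (h : x ∈ ch.solF ν κ F) (n : Mk ν κ) : vl (actF F.toWt s x) n =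
      F.actT (s.1, fun r => ∏ i, (dup s.2).2.2 n i ^ ℓ r i) (vl x n) := by
  have a := (h.2.1.2.2.2.1 n).1
  have b := (Cv.isUnit_iff.1 (isUnit_dupF hs)).2.2 n
  refine Prod.ext rfl (funext fun j => (fld_actF_p hs a (((mem_solF.1 h).2 _ a).1 j)).trans ?_)
  refine congrArg (fun z => _ * z * _) ?_
  simp only [hl, ← Finset.prod_zpow, ← zpow_mul, zpow_sum_ne (b _), mul_comm]
  exact Finset.prod_comm

end Ch

end Vale.Agent.P269
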