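import Vale.Agent.P269.Gen.Abs
import Vale.Agent.P269.Deg.Iface
import Vale.Agent.P269.Hdg.NumDef

/-!
# Series of invariants, cohomological data, the Virasoro property
-/

set_option linter.unusedSectionVars false

namespace Vale.Agent.P269

open P291Z Set Function Topology Filter Fock

section par

variable {X Y : Type} [TopologicalSpace X] [TopologicalSpace Y]

theorem cocycle_par {a : Coch X} (ha : supp (δ a) = ∅) : supp (δ (P291Z.par a)) = ∅ := by
  rw [δ_par, supp_neg]
  exact subset_empty_iff.1 (ha ▸ supp_par (δ a))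

theorem exists_parH : ∃ f : H X →ₗ[ℂ] H X, ∀ a : Zs X, f (H.mk a) = hcls (P291Z.par a.1) :=
  H.exists_lift ⟨⟨fun a => hcls (P291Z.par a.1), fun a b => by
      rw [← hcls_add (cocycle_par a.2) (cocycle_par b.2), ← map_add]; rfl⟩, fun c a => by
      rw [RingHom.id_apply, ← hcls_smul c (cocycle_par a.2), ← map_smul]; rfl⟩
    fun a c hc => (hcls_eq_zero (cocycle_par a.2)).2 ⟨-P291Z.par c, by
      rw [map_neg, δ_par, neg_neg, ← map_sub]
      exact subset_empty_iff.1 (hc ▸ supp_par _)⟩

variable (X) in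
/-- The parity involution `(-1)^deg` of cohomology. -/
noncomputable def parH : Par ℂ (H X) where
  σ := exists_parH.choose
  inv v := by
    obtain ⟨a, rfl⟩ := H.mk_surj v
    rw [exists_parH.choose_spec, hcls_of_mem (cocycle_par a.2), exists_parH.choose_spec]
    exact (congrArg hcls (par_par a.1)).trans (hcls_val a)

theorem parH_hcls {a : Coch X} (ha : supp (δ a) = ∅) : (parH X).σ (hcls a) = hcls (P291Z.par a) := by
  rw [hcls_of_mem ha]
  exact exists_parH.choose_spec _

/-- Pull-back of classes along a map (junk if it is not continuous). -/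
noncomputable def hpull (f : X → Y) (c : H Y) : H X := hcls (pull f (rep c))

end par

variable {S Λ R J K : Type} [Fintype S] [Fintype Λ] [Fintype R] [Fintype J] [Fintype K]

namespace Wt

variable (F : Wt S Λ R J)

/-- The first Chern class of the line bundle `O(ψ, χ)` whose sections have weights `ψ`, `χ`. -/
noncomputable def lc (A : Set ((Λ → ℂ) × (J → ℂ))) (ψ : S → ℤ) (χ : R → ℤ) : H (F.X A) :=
  hcls (eulerC F.actT (fun t (z : ℂ) => (∏ i, t.1 i ^ ψ i) * (∏ i, t.2 i ^ χ i) * z) A
    (fun _ => ⊤) fun _ => ⊥)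

/-- The integral over the total space. -/
noncomputable def intX (A : Set ((Λ → ℂ) × (J → ℂ))) (c : H (F.X A)) : ℂ :=
  ev (Classical.epsilon (IsFund F.actT A)) (rep c)

/-- The integral over the parameter space. -/
noncomputable def intB (B : Set (Λ → ℂ)) (c : H (F.Bs B)) : ℂ :=
  ev (Classical.epsilon (IsFund F.actL B)) (rep c)

/-- Restriction of classes. -/
noncomputable def rs {A A' : Set ((Λ → ℂ) × (J → ℂ))} (h : A ⊆ A') : H (F.X A') →ₐ[ℂ] H (F.X A) :=
  H.mapA ⟨Quo.incl F.actT h, continuous_quot_lift _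
    (continuous_quot_mk.comp (continuous_inclusion h))⟩

/-- Restriction of classes on the parameter space. -/
noncomputable def rsB {B B' : Set (Λ → ℂ)} (h : B ⊆ B') : H (F.Bs B') →ₐ[ℂ] H (F.Bs B) :=
  H.mapA ⟨Quo.incl F.actL h, continuous_quot_lift _
    (continuous_quot_mk.comp (continuous_inclusion h))⟩

/-- `∑ e b × f b` is the class of the diagonal of the parameter space; all classes are even. -/
def CasB (B : Set (Λ → ℂ)) {β : Type} [Fintype β] (e f : β → H (F.Bs B)) : Prop :=
  (∀ b, e b ∈ Ch.Hev _ ∧ f b ∈ Ch.Hev _) ∧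
    ∀ c c', ∑ b, F.intB B (e b * c) * F.intB B (f b * c') = F.intB B (c * c')

/-- Descendant insertions at the marked points `n i`. -/
noncomputable def fsD {ν κ : Type} (A : Set ((Λ → ℂ) × (J → ℂ))) (l : List (ℕ × H (F.X A)))
    (n : Fin l.length → Ch.Mk ν κ) : List (Fac F ν κ) :=
  (List.ofFn fun i => List.replicate (l.get i).1 (.psi (n i)) ++ [.ev (n i) A (l.get i).2]).flatten

/-- The persistent nodes with cotangent line classes at the branches. -/
noncomputable def fsN {ν : Type} (l : List (ℕ × ℕ)) : List (Fac F ν (Fin l.length)) :=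
  (List.ofFn fun q => List.replicate (l.get q).1 (.psi (.inr (q, false))) ++
    List.replicate (l.get q).2 (.psi (.inr (q, true))) ++ [.dg q]).flatten

/-- Global data of an integrand: a selector, a twisting class, a class of the parameter space. -/
structure Ex where
  /-- the selector -/
  P : ∀ ν κ : Type, AM Λ R J ν κ → Prop
  /-- the twisting class -/
  Θ : MvPolynomial (J × ℕ) ℂ
  /-- a set containing the parameters -/
  B : Set (Λ → ℂ)
  /-- the class on the parameter space -/
  c : H (F.Bs B)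

/-- No selector, no twisting, no class. -/
noncomputable def ex0 : F.Ex := ⟨fun _ _ _ => True, 1, univ, 1⟩

/-- Connected domains. -/
noncomputable def exC : F.Ex := ⟨fun _ _ m => m.Conn, 1, univ, 1⟩

/-- A twisting class. -/
noncomputable def exT (Θ : MvPolynomial (J × ℕ) ℂ) : F.Ex := ⟨fun _ _ _ => True, Θ, univ, 1⟩

/-- A class of the parameter space. -/
noncomputable def exB {B : Set (Λ → ℂ)} (c : H (F.Bs B)) : F.Ex := ⟨fun _ _ _ => True, 1, B, c⟩

end Wt

namespace Fam

variable (F : Fam S Λ R J K)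

/-- The first Chern class of the vertical (logarithmic) tangent bundle, for independent equations. -/
noncomputable def c1 (A : Set ((Λ → ℂ) × (J → ℂ))) : H (F.X A) :=
  ∑ᶠ j ∈ F.mov, F.lc A (F.wt j) (F.w j) - ∑ q, F.lc A (F.wk q) (F.χ q)

/-- `∑ a i × a' i` is the class of the diagonal in the fibre product `X3`. -/
def IsCas {β : Type} [Fintype β] (a a' : β → H (F.X F.cone)) : Prop :=
  ∀ c : H F.X3, ev (Classical.epsilon (IsFund F.act3 F.cone3)) (rep ((∑ i,
      hpull (fun z => Quo.mk F.actT ⟨_, (Quo.out z).2.1⟩) (a i) *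
        hpull (fun z => Quo.mk F.actT ⟨_, (Quo.out z).2.2⟩) (a' i)) * c)) =
    F.intX F.cone (hpull (fun z => Quo.mk F.act3 (S := F.cone3)
      ⟨((Quo.out z).1.1, (Quo.out z).1.2, (Quo.out z).1.2), ⟨(Quo.out z).2, (Quo.out z).2⟩⟩) c)

variable [DecidableEq R]

/-- The correlators: descendant insertions `l₁`, persistent nodes `l₂`, relative insertions `l₃`
(`(m, a)` has contact order `m + 1` with the divisor `δ`); `j + 1` is the arithmetic genus. -/
noncomputable def cor (k : ℕ) (e : F.Ex) (δ : J → ℕ) (A A' : Set ((Λ → ℂ) × (J → ℂ))) (d : R → ℤ)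
    (j : ℤ) (l₁ : List (ℕ × H (F.X A))) (l₂ : List (ℕ × ℕ)) (l₃ : List (ℕ × H (F.X A'))) : ℂ :=
  F.inv (ν := Fin l₁.length ⊕ Fin l₃.length) (κ := Fin l₂.length) k (j + 1 - l₂.length) d
    (Sum.elim 0 fun s => ((l₃.get s).1 + 1) • δ) (e.P _ _)
    (.tw e.Θ :: .par e.B e.c :: (F.fsD A l₁ fun i => .inl (.inl i)) ++ F.fsN l₂ ++
      List.ofFn fun s => .ev (.inl (.inr s)) A' (l₃.get s).2)

end Fam

section ser

variable {V : Type} [AddCommGroup V] [Module ℂ V] (p : Par ℂ V)

/-- The monomial of descendant insertions and nodes. -/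
noncomputable def monT (l₁ : List (ℕ × V)) (l₂ : List (ℕ × ℕ)) : Fock.S (Deg.pT p) :=
  (l₁.map fun x => ι _ (Finsupp.single x.1 x.2, 0)).prod *
    (l₂.map fun x => ι _ (0, Finsupp.single x 1)).prod

/-- The monomial of descendant insertions, nodes and relative insertions. -/
noncomputable def monR (D : Deg.Dv) (l₁ : List (ℕ × V)) (l₂ : List (ℕ × ℕ))
    (l₃ : List (ℕ × D.H)) : Fock.S (Deg.pR p D) :=
  Fock.map _ (Deg.isEv_inl _ _) (monT p l₁ l₂) * (l₃.map fun x => ι _ (0, Finsupp.single x.1 x.2)).prod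

end ser

namespace Fam

variable (F : Fam S Λ R J K) [DecidableEq R] (k : ℕ) (e : F.Ex) {A A' : Set ((Λ → ℂ) × (J → ℂ))}
  {V : Type} [AddCommGroup V] [Module ℂ V] (p : Par ℂ V) (i : V →ₗ[ℂ] H (F.X A))

/-- The absolute invariants as functionals. -/
noncomputable def serA : Deg.Ser (R → ℤ) (Deg.pT p) := fun d j =>
  Classical.epsilon fun Z => ∀ l₁ l₂,
    Z (monT p l₁ l₂) = F.cor k e 0 A A d j (l₁.map (Prod.map id i)) l₂ []

/-- The relative invariants as functionals. -/
noncomputable def serR (δ : J → ℕ) (D : Deg.Dv) (i' : D.H →ₗ[ℂ] H (F.X A')) :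
    Deg.Ser (R → ℤ) (Deg.pR p D) := fun d j =>
  Classical.epsilon fun Z => ∀ l₁ l₂ l₃, Z (monR p D l₁ l₂ l₃) =
    F.cor k e δ A A' d j (l₁.map (Prod.map id i)) l₂ (l₃.map (Prod.map id i'))

/-- The absolute invariants without nodes. -/
noncomputable def ser0 : Deg.Ser (R → ℤ) (p.fs ℕ) := fun d j =>
  F.serA k e p i d j ∘ₗ (Fock.map _ (Deg.isEv_inl _ (Par.triv ℂ Deg.NN))).toLinearMap

omit k e p i

/-- `C` is the cohomology of the target with its Poincare pairing. -/
structure IsCoh (C : Deg.Coh) (i : C.H →ₗ[ℂ] H (F.X F.cone)) : Prop where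
  bij : Bijective i
  ev : IsEv C.p (parH _) i
  η : ∀ a b, C.fr.η a b = F.intX _ (i a * i b)
  one : i C.fr.one = 1

/-- Virasoro data on the cohomology of the target: `ρ = c₁`, `μ` preserves the degree and the
classes of the line bundles raise `μ` by one. -/
structure Std (C : Deg.Coh) (i : C.H →ₗ[ℂ] H (F.X F.cone)) (vd : VD C.fr) : Prop
    extends F.IsCoh C i where
  ρ : ∀ v, i (vd.ρ v) = F.c1 _ * i v
  deg : ∀ m v, H.IsDeg m (i v) → H.IsDeg m (i (vd.μ v))
  lc : ∀ χ v v', i v' = F.lc _ 0 χ * i v → i (vd.μ v') = F.lc _ 0 χ * i (vd.μ v) + i v'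

/-- **The Virasoro constraints**, degree by degree. -/
def Vir (C : Deg.Coh) (i : C.H →ₗ[ℂ] H (F.X F.cone)) (vd : VD C.fr) : Prop :=
  ∀ k, F.Big k → ∀ d, vd.VirC (F.ser0 k F.ex0 C.p i d)

end Fam

end Vale.Agent.P269
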