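import Vale.Agent.P269.Pt.Fld
import Vale.Agent.P269.Cv.Map
import Vale.Agent.P269.Ch.Tot
import Vale.Agent.P269.Ch.Chern

/-!
# Abstract stable maps, factors, numerical invariants
-/

set_option linter.unusedSectionVars false

namespace Vale.Agent.P269

open P291Z Set Function Topology Filter Cv

/-- An abstract nodal curve with marked points `ν` and persistent pairs `κ`. -/
structure AC (ν κ : Type) where
  /-- the normalisation -/
  X : Type
  [tX : TopologicalSpace X]
  [t2 : T2Space X]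
  [cX : CompactSpace X]
  /-- the complex structure -/
  R : RS X
  /-- the nodes -/
  N : Finset (X × X)
  /-- the marked points and the branches of the persistent nodes -/
  p : Ch.Mk ν κ → X
  nd : Nd N
  inj : Injective p
  sm : ∀ n, Sm N (p n)

attribute [instance] AC.tX AC.t2 AC.cX

namespace AC

variable {ν κ : Type} [Fintype ν] [Fintype κ] (c : AC ν κ)

open Classical in
/-- The set of marked points. -/
noncomputable def P : Finset c.X := Finset.univ.image c.p

open Classical in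
/-- The sign of the residue. -/
noncomputable def sg (z : c.X) : ℂ := if ∃ q, z = c.p (.inr (q, true)) then -1 else 1

theorem sg_ne (z : c.X) : c.sg z ≠ 0 := by
  unfold sg
  split_ifs <;> simp

/-- The logarithmic dualising bundle; at the second branch of a persistent node the value of a
section is minus the residue. -/
noncomputable def ω : LB c.R := omega c.R c.N c.P * LB.cst c.R c.sg c.sg_ne

/-- The curve, normalised at the persistent nodes, is connected. -/
def Conn : Prop := Nonempty c.X ∧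
  ∀ U : Set c.X, IsClopen U → (∀ n ∈ c.N, n.1 ∈ U ↔ n.2 ∈ U) → U = ∅ ∨ U = univ

/-- The function `t` takes the same values at the two branches of the persistent nodes. -/
def Mt {α : Type} (t : c.X → α) : Prop := ∀ q, t (c.p (.inr (q, false))) = t (c.p (.inr (q, true)))

end AC

/-- An abstract map: a curve with line bundles `L i`, a parameter `l` and fields `y j`. -/
structure AM (Λ T J ν κ : Type) extends AC ν κ where
  /-- the line bundles -/
  L : T → LB toAC.R
  /-- the parameter -/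
  l : Λ → ℂ
  /-- the fields -/
  y : J → toAC.X → ℂ

variable {S Λ R J K : Type} [Fintype S] [Fintype Λ] [Fintype R] [Fintype J] [Fintype K]
  {ν κ : Type} [Fintype ν] [Fintype κ]

namespace AM

variable (m : AM Λ R J ν κ)

/-- The parameter and the values of the fields. -/
def vl (z : m.X) : (Λ → ℂ) × (J → ℂ) := (m.l, fun j => m.y j z)

/-- The fields are sections. -/
def Sec (F : Wt S Λ R J) : Prop := ∀ j, m.y j ∈ H0 m.N (bz m.L (F.w j))

/-- A map to a member of the family. -/
def Sol (F : Fam S Λ R J K) : Prop := m.l ∈ F.B ∧ m.Sec F.toWt ∧ ∀ z, m.vl z ∈ F.cone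

/-- Stability. -/
def Stable (θ : R → ℤ) : Prop := Ge (m.ω * bz m.L θ) 1

/-- The numerical type. -/
def Typ (g : ℤ) (d : R → ℤ) : Prop := gen m.R m.N = g ∧ ∀ i, deg (m.L i) = d i

/-- The base fields have the contact orders `u` and agree at the persistent nodes. -/
def Main (F : Fam S Λ R J K) (u : ν → J → ℕ) : Prop :=
  (∀ j ∉ F.mov, m.Mt (m.y j)) ∧ ∀ j ∉ F.mov, j ∉ F.zer →
    (∀ n, (bz m.L (F.w j)).ord (m.y j) (m.p (.inl n)) = u n j) ∧
      ∀ z, (∀ n, z ≠ m.p (.inl n)) → m.y j z ≠ 0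

/-- Isomorphism of abstract maps, for the fields in `A`. -/
def Iso (F : Wt S Λ R J) (A : Set J) (m m' : AM Λ R J ν κ) : Prop :=
  ∃ (e : m.X ≃ m'.X) (h : LIso m.R m'.R e) (t : R → m.X → ℂ) (τ : S → ℂ), IsUnit τ ∧
    (∀ x y, ((x, y) ∈ m.N ∨ (y, x) ∈ m.N) ↔ ((e x, e y) ∈ m'.N ∨ (e y, e x) ∈ m'.N)) ∧
    (∀ n, e (m.p n) = m'.p n) ∧
    (∀ i, t i ∈ H0 m.N (h.pb (m'.L i) / m.L i) ∧ (∀ x, t i x ≠ 0) ∧ m.Mt (t i)) ∧
    m'.l = F.actL τ m.l ∧ ∀ j ∈ A, ∀ x, m'.y j (e x) = (F.actT (τ, fun i => t i x) (m.vl x)).2 j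

end AM

namespace Ch

variable {ι : Type} [Fintype ι] [DecidableEq ι] {ch : Ch ι J}

/-- The point `x` of the chart represents the curve `c` with the line bundles `A i`, embedded by
`π`. -/
structure CRep (x : ch.W (Mk ν κ)) (c : AC ν κ) (A : ι → LB c.R) (π : c.X → V ch.M) : Prop where
  par : Par ch.o (crv x) c.N A π
  mark : ∃ s : ν ⊕ κ → ι → ℂ, (∀ n i, s n i ≠ 0) ∧ ∀ n, x.p n = s (n.map id Prod.fst) • π (c.p n)
  triv : (1 : c.X → ℂ) ∈ ((c.ω ^ ch.k)⁻¹ * bz A ch.χ).Γ
  xi : ∀ z u, (π z, u) ∈ gr x → ∀ μ, u none (x.Ξ μ) = c.sg z ^ ch.k * wsec A π c.N c.P μ z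

/-- The point `x` represents the abstract map `m`, with `L r = O(ℓ r)`; the fields in `A` are
sections. -/
def Rep (ℓ : R → ι → ℤ) (A : Set J) (x : ch.WF ν κ Λ) (m : AM Λ R J ν κ) : Prop :=
  x.1 = m.l ∧ ∃ (B : ι → LB m.R) (π : m.X → V ch.M), CRep x.2 m.toAC B π ∧
    (∀ r, (1 : m.X → ℂ) ∈ (bz B (ℓ r) / m.L r).Γ) ∧ ∀ j ∈ A, ∀ z, Val x.2 j (π z) (m.y j z)

end Ch

/-- The degrees of the line bundles `L r` in the standard chart. -/
noncomputable def ℓs [DecidableEq R] (r : R) : Option R → ℤ := Tgt.hat (Pi.single r 1)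

section chern

variable {A W P : Type} [NormedRing A] [NormedAlgebra ℂ A] [NormedAddCommGroup W] [NormedSpace ℂ W]
  [AddCommGroup P] [Module ℂ P] [TopologicalSpace P]

/-- The total Chern class of the bundle with fibres `B x / N x`. -/
noncomputable def chernT (act : A → W → W) (ρ : A → P → P) (Z : Set W) (B N : W → Submodule ℂ P) :
    PowerSeries (Ch.Hev (Quo act Z)) :=
  Classical.epsilon fun c => ∃ (Y : Ch.Sp) (p : Ch.Pres Y act Z) (E₀ E : Ch.VB Y)
    (i : E₀.W →ₗ[ℂ] P) (M : Y.T → E₀.W →ₗ[ℂ] E.W), Ch.IsMod p ρ B N E₀ E i M ∧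
      c = ((E.chern.map (Ch.Hev.map p.e).toRingHom).reverse : Polynomial _)

end chern

namespace Ch

variable {ι : Type} [Fintype ι] [DecidableEq ι] {ch : Ch ι J} (F : Wt S Λ R J)
  (Z : Set (ch.WF ν κ Λ))

/-- The action on the space of the thickened field `j`. -/
noncomputable def ρX (j : J) (s : ch.AF ν κ S) (X : Tens ch.M (ch.b j) →L[ℂ] ch.E (some j)) :
    Tens ch.M (ch.b j) →L[ℂ] ch.E (some j) :=
  (∏ i, s.1 i ^ F.wt j i) • (s.2.2.1 (some j) ∘L X ∘L sub (dup s.2) _)

/-- The action on the Koszul functions. -/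
noncomputable def ρK (s : ch.AF ν κ S) (f : ch.P Empty) : ch.P Empty :=
  ρ (dup s.2) (fun j => (∏ i, s.1 i ^ F.wt j i) • f.1 j, f.2)

variable (ch) in
/-- The polynomial Koszul functions for the field `j`. -/
def polK (j : J) : Set (ch.P Empty) :=
  {f | f ∈ ch.polS (K := Empty) Empty.elim Empty.elim ∧ ∀ j' ≠ j, f.1 j' = 0}

/-- The total Chern class of the index bundle `R π_* L^(w j) = Hom(tests, H⁰) - Ob_j`. -/
noncomputable def indC (j : J) : PowerSeries (Hev (Quo (actF F) Z)) :=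
  chernT (actF F) (ρX F j) Z (fun _ => ⊤) (fun _ => ⊥) *
    (chernT (actF F) (ρK F) Z
      (fun x => Submodule.span ℂ {f | f ∈ ch.polK j ∧ ∀ z ∈ gr x.2,
        ∃ y : Tens ch.M (ch.b j) →L[ℂ] ℂ,
          ∀ m, f.1 j z m = val m.2 z.1 * y m.1 - val m.1 z.1 * y m.2})
      fun x => Submodule.span ℂ {f | f ∈ ch.polK j ∧ ∀ z ∈ gr x.2, f.1 j z = 0}).invOfUnit 1

end Ch

/-- The factors of an integrand. -/
inductive Fac (F : Wt S Λ R J) (ν κ : Type)
  /-- the cotangent line class -/
  | psi (n : Ch.Mk ν κ)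
  /-- a class pulled back by an evaluation map -/
  | ev (n : Ch.Mk ν κ) (A : Set ((Λ → ℂ) × (J → ℂ))) (c : H (F.X A))
  /-- a class pulled back from the parameter space -/
  | par (A : Set (Λ → ℂ)) (c : H (F.Bs A))
  /-- the diagonal at a persistent node -/
  | dg (q : κ)
  /-- a polynomial in the Chern classes `c_m (R π_* L^(w j))`, the variables `(j, m)` -/
  | tw (Θ : MvPolynomial (J × ℕ) ℂ)

namespace Fam

variable (F : Fam S Λ R J K)

/-- The cocycle of a factor. -/
noncomputable def coch {ι : Type} [Fintype ι] [DecidableEq ι] {ch : Ch ι J}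
    (Z : Set (ch.WF ν κ Λ)) : Fac F.toWt ν κ → Coch (Quo (Ch.actF F.toWt) Z)
  | .psi n => Ch.psiF n
  | .ev n A c => Ch.evF n A (rep c)
  | .par A c => Ch.parF A (rep c)
  | .dg q => Ch.evN q F.cone2 F.diag
  | .tw Θ => rep (MvPolynomial.aeval
      (fun x : J × ℕ => PowerSeries.coeff x.2 (Ch.indC F.toWt Z x.1)) Θ).1

variable [DecidableEq R]

variable (ν κ) in
/-- The standard chart. -/
noncomputable abbrev sch (k D : ℕ) (g : ℤ) (d : R → ℤ) : Ch (Option R) J :=
  F.chart g (Fintype.card (Ch.Mk ν κ)) d k D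

variable (κ) in
/-- The moduli space in the standard chart. -/
abbrev Mod (k D : ℕ) (g : ℤ) (d : R → ℤ) (u : ν → J → ℕ) : Type :=
  Ch.ModS F ((F.sch ν κ k D g d).cyc κ F u)

/-- The part of the moduli space selected by a property of abstract maps. -/
def sel {k D : ℕ} {g : ℤ} {d : R → ℤ} {u : ν → J → ℕ} (P : AM Λ R J ν κ → Prop) :
    Set (F.Mod κ k D g d u) :=
  {y | ∃ m, Ch.Rep ℓs univ (Quo.out y).1 m ∧ P m}

/-- `P` is invariant under isomorphisms and selects an open and closed part. -/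
def Sel (k : ℕ) (g : ℤ) (d : R → ℤ) (u : ν → J → ℕ) (P : AM Λ R J ν κ → Prop) : Prop :=
  (∀ m m', AM.Iso F.toWt univ m m' → P m → P m') ∧
    ∀ᶠ D in atTop, IsClopen (F.sel P : Set (F.Mod κ k D g d u))

/-- The integral of the product of the factors `fs` over the selected part of the class `v`. -/
noncomputable def intg {k D : ℕ} {g : ℤ} {d : R → ℤ} {u : ν → J → ℕ} (v : BM (F.Mod κ k D g d u))
    (P : AM Λ R J ν κ → Prop) (fs : List (Fac F.toWt ν κ)) : ℂ :=
  ev v (ind (F.sel P) * (fs.map (F.coch _)).prod)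

variable (κ) in
/-- The virtual class in the standard chart. -/
noncomputable def vir (k D : ℕ) (g : ℤ) (d : R → ℤ) (u : ν → J → ℕ) : BM (F.Mod κ k D g d u) :=
  Ch.virF F (F.tdeg (F.sch ν κ k D g d)) _

/-- **The invariants** of the family for genus `g` (of the curve normalised at the persistent
nodes, possibly disconnected), degree `d`, contact orders `u`, selector `P` and factors `fs`. -/
noncomputable def inv (k : ℕ) (g : ℤ) (d : R → ℤ) (u : ν → J → ℕ) (P : AM Λ R J ν κ → Prop)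
    (fs : List (Fac F.toWt ν κ)) : ℂ :=
  Classical.epsilon fun z => ∀ᶠ D in atTop, z = F.intg (F.vir κ k D g d u) P fs

end Fam

end Vale.Agent.P269
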