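import Vale.Agent.P269.Gen.Ser
import Vale.Agent.P269.Deg.Num

/-!
# The induction over complete intersections
-/

namespace Vale.Agent.P269

open P291Z Set Function MvPolynomial Fock

variable {J K : Type} [Fintype J] [Fintype K]

/-- The subvariety of the projective space with coordinates `J` cut out by the `F k`. -/
def ciK (F : K → MvPolynomial J ℂ) : Tgt Unit J K where
  w := fun _ _ => 1
  U := {0}ᶜ
  F := F
  θ := fun _ => 3

/-- The same as a family. -/
noncomputable def ciF (F : K → MvPolynomial J ℂ) (d : K → ℕ) : Fam Empty Empty Unit J K :=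
  (ciK F).fam fun k _ => d k

/-- A smooth (possibly empty) complete intersection of multidegree `d`. -/
structure SmCI (F : K → MvPolynomial J ℂ) (d : K → ℕ) : Prop where
  hom : ∀ k, (F k).IsHomogeneous (d k)
  pos : ∀ k, 1 ≤ d k
  ne : ∀ k, F k ≠ 0
  li : ∀ x ∈ (ciK F).cone, LinearIndependent ℂ fun k j => eval x (pderiv j (F k))

/-- Admissible gradings: `μ` is diagonalisable on the primitive part with the eigenvalues of the
Hodge grading. -/
def Adm (F : K → MvPolynomial J ℂ) (d : K → ℕ) (C : Deg.Coh)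
    (i : C.H →ₗ[ℂ] H ((ciF F d).X (ciF F d).cone)) (vd : VD C.fr) : Prop :=
  ∃ pr : Deg.Prim C vd ((-1) ^ (Fintype.card J - 1 - Fintype.card K)),
    (∀ v, v ∈ pr.A ↔ i v ∈ Submodule.span ℂ (range fun m : ℕ => (ciF F d).lc _ 0 1 ^ m)) ∧
    vd.μ C.fr.one = (-((Fintype.card J - 1 - Fintype.card K : ℕ) / 2) : ℂ) • C.fr.one ∧
    Finset.univ.val.map pr.l = Deg.lP (Fintype.card J - 1) (Finset.univ.val.map d)

/-- The Virasoro constraints for all smooth complete intersections of multidegree `ds` in `ℙ^N`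
and all admissible gradings. -/
def VCI (N : ℕ) (ds : Multiset ℕ) : Prop :=
  ∀ (J K : Type) [Fintype J] [Fintype K] (F : K → MvPolynomial J ℂ) (d : K → ℕ),
    Fintype.card J = N + 1 → Finset.univ.val.map d = ds → SmCI F d →
    ∀ C i vd, (ciF F d).Std C i vd → Adm F d C i vd → (ciF F d).Vir C i vd

namespace St

/-- Empty complete intersections. -/
def VEmpty : Prop := ∀ N ds, N < Multiset.card ds → VCI N ds

/-- The point. -/
def VPoint : Prop := VCI 0 0

/-- Projective spaces. -/
def VProj : Prop := VCI 0 0 → ∀ N, VCI (N + 1) 0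

/-- Linear equations. -/
def VLin : Prop := ∀ N ds, VCI N ds → VCI (N + 1) (1 ::ₘ ds)

/-- The double point degeneration. -/
def VDP : Prop := ∀ N ds a, Multiset.card ds ≤ N → (∀ x ∈ ds, 1 ≤ x) → 1 ≤ a →
  VCI (N + 1) (a ::ₘ ds) → VCI N ds → VCI N (a ::ₘ ds) → VCI N ((a + 1) ::ₘ a ::ₘ ds) →
    VCI (N + 1) ((a + 1) ::ₘ ds)

/-- The Virasoro conjecture for complete intersections. -/
def Main : Prop :=
  ∀ (N c : ℕ) (d : Fin c → ℕ) (F : Fin c → MvPolynomial (Fin (N + 1)) ℂ),
    (∀ k, (F k).IsHomogeneous (d k)) →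
    (∀ x ∈ (ci F).cone, LinearIndependent ℂ fun k j => eval x (pderiv j (F k))) →
    ConnectedSpace (ci F).X →
    ∀ (B : ℕ) (φ : Module.Basis (Fin B) ℂ (H (ci F).X)) (p q : Fin B → ℕ),
      (∀ a, (ci F).IsHodge (p a) (q a) (φ a)) →
      ∀ k', (ci F).L (N - c) φ p q k' ((ci F).potential φ p q) = 0

/-- From the series of the proof to the statement. -/
def Bridge : Prop := (∀ N ds, (∀ x ∈ ds, 1 ≤ x) → VCI N ds) → Main

end St

theorem vci (hE : St.VEmpty) (h0 : St.VPoint) (hP : St.VProj) (hL : St.VLin) (hD : St.VDP) (N : ℕ) :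
    ∀ ds, (∀ x ∈ ds, 1 ≤ x) → VCI N ds := by
  induction N with
  | zero =>
    intro ds _
    rcases eq_or_ne ds 0 with rfl | h
    exacts [h0, hE _ _ (Multiset.card_pos.2 h)]
  | succ N ih =>
    intro ds hds
    induction ds using Multiset.induction_on with
    | empty => exact hP h0 N
    | cons a ds _ =>
      have h1 : ∀ x ∈ ds, 1 ≤ x := fun x hx => hds x (Multiset.mem_cons_of_mem hx)
      rcases lt_or_ge N ds.card with h | h
      · exact hE _ _ (by rw [Multiset.card_cons]; omega)
      have ha := hds a (Multiset.mem_cons_self _ _)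
      clear hds
      induction a, ha using Nat.le_induction with
      | base => exact hL _ _ (ih _ h1)
      | succ a ha iha =>
        refine hD N ds a h h1 ha iha (ih _ h1) (ih _ ?_) (ih _ ?_) <;>
          simp only [Multiset.mem_cons, forall_eq_or_imp]
        exacts [⟨ha, h1⟩, ⟨by omega, ha, h1⟩]

theorem main_of (hE : St.VEmpty) (h0 : St.VPoint) (hP : St.VProj) (hL : St.VLin) (hD : St.VDP)
    (hB : St.Bridge) : St.Main :=
  hB (vci hE h0 hP hL hD)

end Vale.Agent.P269
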